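import Vale.Agent.P011.H272.Q1Three
import Vale.Agent.P011.H359.NoSgd
import Vale.Agent.P011.Pow.QEnd

/-!
**The conjecture in every degree from the odd degrees and the doubling step for odd degrees.**
-/

open Module Topology NumberField

namespace Vale.Agent.P011.H272

open Vale.Agent.P011.One Vale.Agent.P011.H976 Vale.Agent.P011.Pow

/-- **Every degree `n ≥ 3`**, from the odd degrees and the doubling step `m → 2 m`, `m` odd. -/
theorem mp_all_of (hodd : ∀ n : ℕ, 3 ≤ n → Odd n → Solv n)
    (hdbl : ∀ m : ℕ, 3 ≤ m → Odd m → MP m → MP (2 * m)) {n : ℕ} (hn : 3 ≤ n) : MP n := by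
  obtain ⟨a, m, hm, rfl⟩ := Nat.exists_eq_two_pow_mul_odd (n := n) (by omega)
  by_cases h1 : m = 1
  · subst h1
    rw [mul_one] at hn ⊢
    refine mp_two ?_
    by_contra hlt
    push Not at hlt
    have h2 : 2 ^ a ≤ 2 ^ 1 := Nat.pow_le_pow_right (by norm_num) (by omega)
    omega
  · have hm3 : 3 ≤ m := by
      obtain ⟨c, rfl⟩ := hm
      omega
    have h2 : MP m := mp_of_solv' hm3 (hodd m hm3 hm)
    cases a with
    | zero => rwa [pow_zero, one_mul]
    | succ e =>
      have h3 : 2 ^ (e + 1) * m = 2 * m * 2 ^ e := by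
        rw [pow_succ]
        ring
      rw [h3]
      exact Vale.Agent.P011.H359.mp_double_pow (by omega) (hdbl m hm3 hm h2) e

end Vale.Agent.P011.H272
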