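import Vale.Agent.P011.H976.RHNF
import Vale.Agent.P011.One.SettingOf

/-!
**The conjecture in its original form in degree `n` from the solvable step in degree `n`.**
-/

open Matrix Module Topology NumberField
open scoped commutatorElement

namespace Vale.Agent.P011.H272

open Vale.Agent.P011.One Vale.Agent.P011.H976 Vale.Agent.P011.Pow Vale.Agent.P011.Even

/-- `MP n` gives the statement for one algebra. -/
theorem mpat_of_mp {k K D : Type} [Field k] [NumberField k] [Field K] [NumberField K] [StarRing K]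
    [DivisionRing D] [StarRing D] [Algebra k K] [Algebra k D] [Algebra K D] [IsScalarTower k K D]
    {d : kˣ} {s : K} {n : ℕ} (h : MP n) (hS : Setting k K D d s) (hdeg : finrank K D = n ^ 2) :
    Vale.Agent.P011.Tpl.H359.MPat k K D n := fun Ω _ _ f M B N _ hN =>
  h k K D d s hS hdeg Ω f M B N hN

/-- **The Margulis-Platonov conjecture for `SU_1(D, *)`, `D` of degree `n`, from `MP n`.** -/
theorem q1_of_mp {k K D F : Type} [Field k] [NumberField k] [Field K] [NumberField K] [Algebra k K]
    [StarRing K] [DivisionRing D] [StarRing D] [Algebra k D] [Algebra K D] [IsScalarTower k K D]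
    [StarModule K D] [FiniteDimensional K D] [Algebra.IsCentral K D] [Field F] [Algebra K F]
    (hfix : ∀ x : K, star x = x ↔ x ∈ Set.range (algebraMap k K)) (hK : ∃ x : K, star x ≠ x)
    {n : ℕ} (hn : 3 ≤ n) (hMP : MP n) (hdeg : finrank K D = n ^ 2)
    (f : D →ₐ[K] Matrix (Fin n) (Fin n) F) :
    ∃ δ : SUD f →* HA D n (Adiv k K D), IsDiagonal δ ∧ DenseRange δ ∧
      ∀ N : Subgroup (SUD f), N.index ≠ 0 → IsOpenPreimage δ N := by
  obtain ⟨d, s, hS⟩ := exists_setting (D := D) hfix hK
  exact Vale.Agent.P011.Tpl.H359.q1_gen hn hS (Vale.Agent.P011.Tpl.H359.star_fix hfix) hdeg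
    (mpat_of_mp hMP hS hdeg) f

/-- **The Margulis-Platonov conjecture for `SU_1(D, *)`, `D` of degree `n`, from the solvable
step.** -/
theorem q1_of_solv {k K D F : Type} [Field k] [NumberField k] [Field K] [NumberField K]
    [Algebra k K] [StarRing K] [DivisionRing D] [StarRing D] [Algebra k D] [Algebra K D]
    [IsScalarTower k K D] [StarModule K D] [FiniteDimensional K D] [Algebra.IsCentral K D]
    [Field F] [Algebra K F]
    (hfix : ∀ x : K, star x = x ↔ x ∈ Set.range (algebraMap k K)) (hK : ∃ x : K, star x ≠ x)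
    {n : ℕ} (hn : 3 ≤ n) (hsolv : Solv n) (hdeg : finrank K D = n ^ 2)
    (f : D →ₐ[K] Matrix (Fin n) (Fin n) F) :
    ∃ δ : SUD f →* HA D n (Adiv k K D), IsDiagonal δ ∧ DenseRange δ ∧
      ∀ N : Subgroup (SUD f), N.index ≠ 0 → IsOpenPreimage δ N :=
  q1_of_mp hfix hK hn (mp_of_solv' hn hsolv) hdeg f

end Vale.Agent.P011.H272
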